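import Mathlib.Tactic.Module
import Mathlib.Tactic.LinearCombination
import Mathlib.Tactic.Ring
import Mathlib.Algebra.Module.Basic
import Mathlib.Algebra.BigOperators.Fin

/-!
# P267, package RR-ALG, part 1: the abstract algebra of helper315's kernel (note 1358)

Local model (note 1656): `F` = scalar functions, `M` = matrix valued functions of `(z, s)`;
`D k` = `∂_{z̄_k} + a_k · ∂_s`, `E j` = `∂_{s̄_j}`; `N k x = D k x + x η_k` (twisted by `ω τ`),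
`G j` = `∂_{s̄_j}` on `M`.
-/

namespace Vale.Agent.P267.H993

/-- Four commuting derivations on the scalar functions `F` and the (twisted) module `M`. -/
structure Ders (F M : Type*) [CommRing F] [AddCommGroup M] [Module F M] where
  D : Fin 2 → F → F
  E : Fin 2 → F → F
  N : Fin 2 → M → M
  G : Fin 2 → M → M
  D_add : ∀ k x y, D k (x + y) = D k x + D k y
  D_mul : ∀ k x y, D k (x * y) = D k x * y + x * D k y
  E_add : ∀ k x y, E k (x + y) = E k x + E k y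
  E_mul : ∀ k x y, E k (x * y) = E k x * y + x * E k y
  N_add : ∀ k x y, N k (x + y) = N k x + N k y
  N_smul : ∀ k (f : F) (x : M), N k (f • x) = D k f • x + f • N k x
  G_add : ∀ k x y, G k (x + y) = G k x + G k y
  G_smul : ∀ k (f : F) (x : M), G k (f • x) = E k f • x + f • G k x

namespace Ders

variable {F M : Type*} [CommRing F] [AddCommGroup M] [Module F M] (d : Ders F M)

lemma add_map_zero {A : Type*} [AddCommGroup A] (f : A → A) (h : ∀ x y, f (x + y) = f x + f y) :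
    f 0 = 0 := by
  have := h 0 0
  simpa using this

lemma add_map_neg {A : Type*} [AddCommGroup A] (f : A → A) (h : ∀ x y, f (x + y) = f x + f y)
    (x : A) : f (-x) = -f x := by
  have := h x (-x)
  rw [add_neg_cancel, add_map_zero f h] at this
  exact eq_neg_of_add_eq_zero_right this.symm

lemma add_map_sub {A : Type*} [AddCommGroup A] (f : A → A) (h : ∀ x y, f (x + y) = f x + f y)
    (x y : A) : f (x - y) = f x - f y := by
  rw [sub_eq_add_neg, h, add_map_neg f h, ← sub_eq_add_neg]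

lemma D_neg (k x) : d.D k (-x) = -d.D k x := add_map_neg _ (d.D_add k) x
lemma D_sub (k x y) : d.D k (x - y) = d.D k x - d.D k y := add_map_sub _ (d.D_add k) x y
lemma D_zero (k) : d.D k 0 = 0 := add_map_zero _ (d.D_add k)
lemma E_neg (k x) : d.E k (-x) = -d.E k x := add_map_neg _ (d.E_add k) x
lemma E_sub (k x y) : d.E k (x - y) = d.E k x - d.E k y := add_map_sub _ (d.E_add k) x y
lemma E_zero (k) : d.E k 0 = 0 := add_map_zero _ (d.E_add k)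
lemma N_neg (k x) : d.N k (-x) = -d.N k x := add_map_neg _ (d.N_add k) x
lemma N_sub (k x y) : d.N k (x - y) = d.N k x - d.N k y := add_map_sub _ (d.N_add k) x y
lemma N_zero (k) : d.N k 0 = 0 := add_map_zero _ (d.N_add k)
lemma G_neg (k x) : d.G k (-x) = -d.G k x := add_map_neg _ (d.G_add k) x
lemma G_sub (k x y) : d.G k (x - y) = d.G k x - d.G k y := add_map_sub _ (d.G_add k) x y
lemma G_zero (k) : d.G k 0 = 0 := add_map_zero _ (d.G_add k)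

end Ders

/-- The Koszul data: fibre coordinates `s`, `b = h(·, s)`, `a_k = al k · s`, `Γ`, `B`, `Φ`. -/
structure KDat {F M : Type*} [CommRing F] [AddCommGroup M] [Module F M] (d : Ders F M) where
  s : Fin 2 → F
  b : Fin 2 → F
  /-- `h i j`, `b i = Σ h i j s̄_j` -/
  h : Fin 2 → Fin 2 → F
  /-- `al k i j` -/
  al : Fin 2 → Fin 2 → Fin 2 → F
  /-- `Bt i`: `R i 0 = s 1 * Bt i`, `R i 1 = - s 0 * Bt i` -/
  Bt : Fin 2 → F
  /-- `Ga k i` -/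
  Ga : Fin 2 → Fin 2 → M
  one : M
  Phi : M
  Ds : ∀ k i, d.D k (s i) = al k i 0 * s 0 + al k i 1 * s 1
  Es : ∀ j i, d.E j (s i) = 0
  Eb : ∀ j i, d.E j (b i) = h i j
  Eh : ∀ l i j, d.E l (h i j) = 0
  Eal : ∀ l k i j, d.E l (al k i j) = 0
  EDb : ∀ j k i, d.E j (d.D k (b i)) = d.D k (h i j)
  DDb : ∀ i, d.D 0 (d.D 1 (b i)) = d.D 1 (d.D 0 (b i))
  EBt : ∀ j i, d.E j (Bt i) = 0
  GGa : ∀ j k i, d.G j (Ga k i) = 0
  Gone : ∀ j, d.G j one = 0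
  GPhi : ∀ j, d.G j Phi = 0
  hGa : ∀ k, s 0 • Ga k 0 + s 1 • Ga k 1 = d.N k one - (al k 0 0 + al k 1 1) • one
  hR0 : ∀ i, d.D 0 (al 1 i 0) - d.D 1 (al 0 i 0)
      - (al 0 i 0 * al 1 0 0 + al 0 i 1 * al 1 1 0 - al 1 i 0 * al 0 0 0 - al 1 i 1 * al 0 1 0)
      = s 1 * Bt i
  hR1 : ∀ i, d.D 0 (al 1 i 1) - d.D 1 (al 0 i 1)
      - (al 0 i 0 * al 1 0 1 + al 0 i 1 * al 1 1 1 - al 1 i 0 * al 0 0 1 - al 1 i 1 * al 0 1 1)
      = -(s 0 * Bt i)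
  hPhi0 : s 0 • Phi = -(d.N 0 (Ga 1 1) - d.N 1 (Ga 0 1)) + (al 0 0 0 • Ga 1 1 - al 1 0 0 • Ga 0 1)
      - (al 0 0 1 • Ga 1 0 - al 1 0 1 • Ga 0 0) - Bt 0 • one
  hPhi1 : s 1 • Phi = (d.N 0 (Ga 1 0) - d.N 1 (Ga 0 0)) + (al 0 1 0 • Ga 1 1 - al 1 1 0 • Ga 0 1)
      - (al 0 1 1 • Ga 1 0 - al 1 1 1 • Ga 0 0) - Bt 1 • one

namespace KDat

variable {F M : Type*} [CommRing F] [AddCommGroup M] [Module F M] {d : Ders F M} (K : KDat d)

/-- `θ_i` in the direction `dz̄_k`. -/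
def th (k i : Fin 2) : F := d.D k (K.b i) + (K.b 0 * K.al k 0 i + K.b 1 * K.al k 1 i)

lemma D_b (k i : Fin 2) :
    d.D k (K.b i) = K.th k i - (K.b 0 * K.al k 0 i + K.b 1 * K.al k 1 i) := by
  simp only [th]
  ring

/-- `q = b · s` -/
def q : F := K.b 0 * K.s 0 + K.b 1 * K.s 1

lemma D_q (k : Fin 2) : d.D k K.q = K.th k 0 * K.s 0 + K.th k 1 * K.s 1 := by
  simp only [q, th, d.D_add, d.D_mul, K.Ds]
  ring

lemma E_q (j : Fin 2) : d.E j K.q = K.h 0 j * K.s 0 + K.h 1 j * K.s 1 := by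
  simp only [q, d.E_add, d.E_mul, K.Es, K.Eb]
  ring

lemma E_th (j k i : Fin 2) :
    d.E j (K.th k i) = d.D k (K.h i j) + (K.h 0 j * K.al k 0 i + K.h 1 j * K.al k 1 i) := by
  simp only [th, d.E_add, d.E_mul, K.Eal, K.Eb, K.EDb]
  ring

/-- `∂̄θ = θ α + b R` -/
lemma D_th (i : Fin 2) : d.D 0 (K.th 1 i) - d.D 1 (K.th 0 i) =
    (K.th 0 0 * K.al 1 0 i + K.th 0 1 * K.al 1 1 i - K.th 1 0 * K.al 0 0 i
      - K.th 1 1 * K.al 0 1 i)
    + (K.b 0 * (d.D 0 (K.al 1 0 i) - d.D 1 (K.al 0 0 i)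
      - (K.al 0 0 0 * K.al 1 0 i + K.al 0 0 1 * K.al 1 1 i - K.al 1 0 0 * K.al 0 0 i
        - K.al 1 0 1 * K.al 0 1 i))
      + K.b 1 * (d.D 0 (K.al 1 1 i) - d.D 1 (K.al 0 1 i)
      - (K.al 0 1 0 * K.al 1 0 i + K.al 0 1 1 * K.al 1 1 i - K.al 1 1 0 * K.al 0 0 i
        - K.al 1 1 1 * K.al 0 1 i))) := by
  simp only [th, d.D_add, d.D_mul, K.DDb]
  ring

lemma D_th0 : d.D 0 (K.th 1 0) - d.D 1 (K.th 0 0) =
    (K.th 0 0 * K.al 1 0 0 + K.th 0 1 * K.al 1 1 0 - K.th 1 0 * K.al 0 0 0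
      - K.th 1 1 * K.al 0 1 0) + K.s 1 * (K.b 0 * K.Bt 0 + K.b 1 * K.Bt 1) := by
  linear_combination K.D_th 0 + K.b 0 * K.hR0 0 + K.b 1 * K.hR0 1

lemma D_th1 : d.D 0 (K.th 1 1) - d.D 1 (K.th 0 1) =
    (K.th 0 0 * K.al 1 0 1 + K.th 0 1 * K.al 1 1 1 - K.th 1 0 * K.al 0 0 1
      - K.th 1 1 * K.al 0 1 1) - K.s 0 * (K.b 0 * K.Bt 0 + K.b 1 * K.Bt 1) := by
  linear_combination K.D_th 1 + K.b 0 * K.hR1 0 + K.b 1 * K.hR1 1

/-- determinant of the metric -/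
def dh : F := K.h 0 0 * K.h 1 1 - K.h 0 1 * K.h 1 0

/-- `B = Σ b_i B^i` -/
def BB : F := K.b 0 * K.Bt 0 + K.b 1 * K.Bt 1

/-- coefficient of `σ_1σ_2` in `S_f` -/
def Sss (f : ℕ → F) : M := -((f 2 * K.dh) • K.one)

/-- coefficient of `dz̄_k σ_j` in `S_f` -/
def Sks (f : ℕ → F) (k j : Fin 2) : M :=
  f 1 • (K.h 0 j • K.Ga k 1 - K.h 1 j • K.Ga k 0)
    - (f 2 * (K.th k 0 * K.h 1 j - K.th k 1 * K.h 0 j)) • K.one

/-- coefficient of `dz̄_1 dz̄_2` in `S_f` -/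
def Szz (f : ℕ → F) : M :=
  f 0 • K.Phi + f 1 • (K.BB • K.one - K.th 0 0 • K.Ga 1 1 + K.th 1 0 • K.Ga 0 1
      + K.th 0 1 • K.Ga 1 0 - K.th 1 1 • K.Ga 0 0)
    - (f 2 * (K.th 0 0 * K.th 1 1 - K.th 1 0 * K.th 0 1)) • K.one

/-- coefficient of `dz̄_k` in `A_g` -/
def Az (g : ℕ → F) (k : Fin 2) : M :=
  g 0 • (K.b 1 • K.Ga k 0 - K.b 0 • K.Ga k 1)
    + (g 1 * (K.th k 0 * K.b 1 - K.th k 1 * K.b 0)) • K.one

/-- coefficient of `σ_j` in `A_g` -/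
def As (g : ℕ → F) (j : Fin 2) : M := (g 1 * (K.h 0 j * K.b 1 - K.h 1 j * K.b 0)) • K.one

/-- `f n` is the `n`-th derivative of a function of `q`. -/
structure FunQ (f : ℕ → F) : Prop where
  D : ∀ k n, d.D k (f n) = f (n + 1) * d.D k K.q
  E : ∀ j n, d.E j (f n) = f (n + 1) * d.E j K.q

section
variable {f : ℕ → F} (hf : K.FunQ f)
include hf

/-- `∂̄ S_f = 0`, coefficient of `dz̄_k σ_1 σ_2`. -/
theorem closed1 (k : Fin 2) :
    d.N k (K.Sss f) - d.G 0 (K.Sks f k 1) + d.G 1 (K.Sks f k 0) = 0 := by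
  simp only [Sss, Sks, dh, d.N_neg, d.N_smul, d.G_sub, d.G_smul, d.D_mul, d.D_sub, d.E_mul,
    d.E_sub, hf.D, hf.E, K.D_q, K.E_q, K.E_th, K.Eh, K.GGa, K.Gone]
  linear_combination (norm := module) (f 2 * (K.h 0 0 * K.h 1 1 - K.h 0 1 * K.h 1 0)) • K.hGa k

/-- `∂̄ S_f = 0`, coefficient of `dz̄_1 dz̄_2 σ_j`. -/
theorem closed2 (j : Fin 2) :
    d.N 0 (K.Sks f 1 j) - d.N 1 (K.Sks f 0 j) + d.G j (K.Szz f) = 0 := by
  simp only [Szz, Sks, BB, d.N_smul, d.N_sub, d.G_sub, d.G_add, d.G_smul, d.D_mul,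
    d.D_sub, d.E_mul, d.E_add,
    d.E_sub, hf.D, hf.E, K.D_q, K.E_q, K.E_th, K.EBt, K.Eb, K.GGa, K.Gone, K.GPhi]
  linear_combination (norm := module) (f 1 * K.h 0 j) • K.hPhi0 + (f 1 * K.h 1 j) • K.hPhi1
    + (f 2 * (K.th 0 1 * K.h 0 j - K.th 0 0 * K.h 1 j)) • K.hGa 1
    + (f 2 * (K.th 1 0 * K.h 1 j - K.th 1 1 * K.h 0 j)) • K.hGa 0
    - (f 2 * K.h 1 j * K.D_th0) • K.one + (f 2 * K.h 0 j * K.D_th1) • K.one

end

section
variable {f g : ℕ → F} (hg : K.FunQ g) (h0 : f 0 = K.q * g 0) (h1 : f 1 = g 0 + K.q * g 1)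
  (h2 : f 2 = 2 * g 1 + K.q * g 2)
include hg h2

/-- `∂̄ A_g = S_{x g}`, coefficient of `σ_1 σ_2`. -/
theorem prim1 : d.G 0 (K.As g 1) - d.G 1 (K.As g 0) = K.Sss f := by
  simp only [Sss, As, dh, d.G_smul, d.E_mul, d.E_sub, hg.E, K.E_q, K.Eb, K.Eh, K.Gone]
  rw [h2, q]
  module

include h1

/-- `∂̄ A_g = S_{x g}`, coefficient of `dz̄_k σ_j`. -/
theorem prim2 (k j : Fin 2) : d.N k (K.As g j) - d.G j (K.Az g k) = K.Sks f k j := by
  simp only [Sks, As, Az, d.N_smul, d.G_add, d.G_sub, d.G_smul, d.E_mul, d.E_sub, hg.E,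
    hg.D, K.D_q, K.E_q, K.Eb, K.E_th, K.Gone, K.GGa, d.D_mul, d.D_sub, K.D_b]
  rw [h2, h1, q]
  linear_combination (norm := module) (g 1 * (K.h 1 j * K.b 0 - K.h 0 j * K.b 1)) • K.hGa k

include h0

/-- `∂̄ A_g = S_{x g}`, coefficient of `dz̄_1 dz̄_2`. -/
theorem prim3 : d.N 0 (K.Az g 1) - d.N 1 (K.Az g 0) = K.Szz f := by
  simp only [Szz, Az, BB, d.N_smul, d.N_add, d.N_sub, hg.D, K.D_q, d.D_mul, d.D_sub, K.D_b,
    zero_add]
  rw [h2, h1, h0, q]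
  linear_combination (norm := module) (-(g 0 * K.b 0)) • K.hPhi0 + (-(g 0 * K.b 1)) • K.hPhi1
    + (g 1 * (K.b 1 * K.th 0 0 - K.b 0 * K.th 0 1)) • K.hGa 1
    + (g 1 * (K.b 0 * K.th 1 1 - K.b 1 * K.th 1 0)) • K.hGa 0
    + (g 1 * K.b 1 * K.D_th0) • K.one - (g 1 * K.b 0 * K.D_th1) • K.one

end

end KDat

end Vale.Agent.P267.H993
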